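import Mathlib

/-! P229: moving frames of Monge surfaces (linear ODE). -/

open Set Filter Topology
open scoped ContDiff

namespace Vale.Agent.Lib.P229

/-- states: a frame and a point of `ℝ³` -/
abbrev St := (Fin 3 → Fin 3 → ℝ) × (Fin 3 → ℝ)

/-- the linear vector field of the moving frame -/
noncomputable def field (a b β : ℝ → ℝ) (t : ℝ) (s : St) : St :=
  (![fun k => -(a t * s.1 1 k) - b t * s.1 2 k, fun k => a t * s.1 0 k,
    fun k => b t * s.1 0 k], fun k => β t * s.1 0 k)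

theorem field_contDiffOn {a b β : ℝ → ℝ} {J : Set ℝ} (ha : ContDiffOn ℝ ∞ a J)
    (hb : ContDiffOn ℝ ∞ b J) (hβ : ContDiffOn ℝ ∞ β J) :
    ContDiffOn ℝ ∞ (fun p : ℝ × St => field a b β p.1 p.2) (J ×ˢ univ) := by
  have hfst : MapsTo (fun p : ℝ × St => p.1) (J ×ˢ univ) J := fun p hp => hp.1
  have ha' : ContDiffOn ℝ ∞ (fun p : ℝ × St => a p.1) (J ×ˢ univ) :=
    ha.comp contDiff_fst.contDiffOn hfst
  have hb' : ContDiffOn ℝ ∞ (fun p : ℝ × St => b p.1) (J ×ˢ univ) :=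
    hb.comp contDiff_fst.contDiffOn hfst
  have hβ' : ContDiffOn ℝ ∞ (fun p : ℝ × St => β p.1) (J ×ˢ univ) :=
    hβ.comp contDiff_fst.contDiffOn hfst
  have hY : ∀ i k, ContDiffOn ℝ ∞ (fun p : ℝ × St => p.2.1 i k) (J ×ˢ univ) := fun i k =>
    ContDiff.contDiffOn (by fun_prop)
  refine ContDiffOn.prodMk ?_ ?_
  · rw [contDiffOn_pi]
    intro i
    rw [contDiffOn_pi]
    intro k
    fin_cases i
    · exact ((ha'.mul (hY 1 k)).neg).sub (hb'.mul (hY 2 k))
    · exact ha'.mul (hY 0 k)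
    · exact hb'.mul (hY 0 k)
  · rw [contDiffOn_pi]
    intro k
    exact hβ'.mul (hY 0 k)

theorem frame {a b β : ℝ → ℝ} {v₀ δ : ℝ} (hδ : 0 < δ)
    (ha : ContDiffOn ℝ ∞ a (Ioo (v₀ - δ) (v₀ + δ)))
    (hb : ContDiffOn ℝ ∞ b (Ioo (v₀ - δ) (v₀ + δ)))
    (hβ : ContDiffOn ℝ ∞ β (Ioo (v₀ - δ) (v₀ + δ))) :
    ∃ ε > 0, ε < δ ∧ ∃ (Y : ℝ → Fin 3 → Fin 3 → ℝ) (c : ℝ → Fin 3 → ℝ),
      (∀ i k, ContDiffOn ℝ ∞ (fun t => Y t i k) (Ioo (v₀ - ε) (v₀ + ε))) ∧
      (∀ k, ContDiffOn ℝ ∞ (fun t => c t k) (Ioo (v₀ - ε) (v₀ + ε))) ∧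
      (∀ t ∈ Ioo (v₀ - ε) (v₀ + ε), ∀ k,
        HasDerivAt (fun t => Y t 0 k) (-(a t * Y t 1 k) - b t * Y t 2 k) t ∧
        HasDerivAt (fun t => Y t 1 k) (a t * Y t 0 k) t ∧
        HasDerivAt (fun t => Y t 2 k) (b t * Y t 0 k) t ∧
        HasDerivAt (fun t => c t k) (β t * Y t 0 k) t) ∧
      (∀ t ∈ Ioo (v₀ - ε) (v₀ + ε), ∀ i j, ∑ k, Y t i k * Y t j k = if i = j then 1 else 0) := by
  have hsm := field_contDiffOn ha hb hβ
  let W : ℝ × St → ℝ × St := fun p => (1, field a b β p.1 p.2)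
  let s₀ : St := (fun i j => if i = j then 1 else 0, 0)
  have hW : ContDiffAt ℝ 1 W (v₀, s₀) := by
    have hopen : IsOpen ((Ioo (v₀ - δ) (v₀ + δ)) ×ˢ (univ : Set St)) :=
      isOpen_Ioo.prod isOpen_univ
    have hmem : (v₀, s₀) ∈ (Ioo (v₀ - δ) (v₀ + δ)) ×ˢ (univ : Set St) :=
      ⟨⟨by linarith, by linarith⟩, mem_univ _⟩
    have h1 : ContDiffAt ℝ 1 (fun p : ℝ × St => field a b β p.1 p.2) (v₀, s₀) :=
      (hsm.contDiffAt (hopen.mem_nhds hmem)).of_le (by exact_mod_cast le_top)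
    exact contDiffAt_const.prodMk h1
  obtain ⟨α, hα0, ε₀, hε₀, hα⟩ :=
    hW.exists_forall_mem_closedBall_exists_eq_forall_mem_Ioo_hasDerivAt₀ v₀
  -- the time component
  have htime : ∀ t ∈ Ioo (v₀ - ε₀) (v₀ + ε₀), (α t).1 = t := by
    intro t ht
    have hd : ∀ t ∈ Ioo (v₀ - ε₀) (v₀ + ε₀), HasDerivAt (fun t => (α t).1 - t) 0 t := by
      intro t ht
      have h1 := ((hasFDerivAt_fst (𝕜 := ℝ) (p := α t)).comp_hasDerivAt t (hα t ht))
      have h2 : HasDerivAt (fun t => (α t).1 - t) ((1 : ℝ) - 1) t := h1.sub (hasDerivAt_id' t)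
      rw [sub_self] at h2
      exact h2
    have hconst := (convex_Ioo (v₀ - ε₀) (v₀ + ε₀)).is_const_of_fderivWithin_eq_zero (𝕜 := ℝ)
      (f := fun t => (α t).1 - t)
      (fun t ht => (hd t ht).differentiableAt.differentiableWithinAt)
      (fun t ht => by
        have := (hd t ht).hasDerivWithinAt (s := Ioo (v₀ - ε₀) (v₀ + ε₀))
        have h3 := this.hasFDerivWithinAt.fderivWithin (isOpen_Ioo.uniqueDiffWithinAt ht)
        rw [h3]
        ext
        simp)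
      ht (show v₀ ∈ Ioo (v₀ - ε₀) (v₀ + ε₀) from ⟨by linarith, by linarith⟩)
    have h0 : (α v₀).1 = v₀ := by rw [hα0]
    simp only [h0, sub_self] at hconst
    linarith
  set ε : ℝ := min ε₀ δ / 2 with hεdef
  have hmin : 0 < min ε₀ δ := lt_min hε₀ hδ
  have hε : 0 < ε := by positivity
  have hεε₀ : ε < ε₀ := by
    have := min_le_left ε₀ δ
    linarith
  have hεδ : ε < δ := by
    have := min_le_right ε₀ δ
    linarith
  have hsub : ∀ t ∈ Icc (v₀ - ε) (v₀ + ε), t ∈ Ioo (v₀ - ε₀) (v₀ + ε₀) := fun t ht =>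
    ⟨by linarith [ht.1], by linarith [ht.2]⟩
  have hsubδ : Icc (v₀ - ε) (v₀ + ε) ⊆ Ioo (v₀ - δ) (v₀ + δ) := fun t ht =>
    ⟨by linarith [ht.1], by linarith [ht.2]⟩
  -- the state
  have hst : ∀ t ∈ Icc (v₀ - ε) (v₀ + ε),
      HasDerivAt (fun t => (α t).2) (field a b β t (α t).2) t := by
    intro t ht
    have h1 := ((hasFDerivAt_snd (𝕜 := ℝ) (p := α t)).comp_hasDerivAt t (hα t (hsub t ht)))
    have h2 : (α t).1 = t := htime t (hsub t ht)
    have h3 : (W (α t)).2 = field a b β t (α t).2 := by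
      simp only [W, h2]
    simpa [Function.comp_def, h3] using h1
  have hsmooth : ContDiffOn ℝ ∞ (fun t => (α t).2) (Icc (v₀ - ε) (v₀ + ε)) := by
    have := ODE.contDiffOn_enat_Icc_of_hasDerivWithinAt (n := (⊤ : ℕ∞)) (f := field a b β)
      (tmin := v₀ - ε) (tmax := v₀ + ε) (u := univ) (α := fun t => (α t).2)
      (hsm.mono (prod_mono hsubδ (subset_refl _)))
      (fun t ht => (hst t ht).hasDerivWithinAt) (fun t _ => mem_univ _)
    exact this
  have hIcc : Ioo (v₀ - ε) (v₀ + ε) ⊆ Icc (v₀ - ε) (v₀ + ε) := Ioo_subset_Icc_self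
  have hder : ∀ t ∈ Ioo (v₀ - ε) (v₀ + ε), ∀ k,
        HasDerivAt (fun t => (α t).2.1 0 k) (-(a t * (α t).2.1 1 k) - b t * (α t).2.1 2 k) t ∧
        HasDerivAt (fun t => (α t).2.1 1 k) (a t * (α t).2.1 0 k) t ∧
        HasDerivAt (fun t => (α t).2.1 2 k) (b t * (α t).2.1 0 k) t ∧
        HasDerivAt (fun t => (α t).2.2 k) (β t * (α t).2.1 0 k) t := by
    intro t ht k
    have h := hst t (hIcc ht)
    have h1 : HasDerivAt (fun t => (α t).2.1) (field a b β t (α t).2).1 t := by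
      simpa [Function.comp_def] using
        ((hasFDerivAt_fst (𝕜 := ℝ) (p := (α t).2)).comp_hasDerivAt t h)
    have h2 : HasDerivAt (fun t => (α t).2.2) (field a b β t (α t).2).2 t := by
      simpa [Function.comp_def] using
        ((hasFDerivAt_snd (𝕜 := ℝ) (p := (α t).2)).comp_hasDerivAt t h)
    have h3 := fun i => hasDerivAt_pi.1 (hasDerivAt_pi.1 h1 i) k
    exact ⟨h3 0, h3 1, h3 2, hasDerivAt_pi.1 h2 k⟩
  refine ⟨ε, hε, hεδ, fun t => (α t).2.1, fun t => (α t).2.2, ?_, ?_, hder, ?_⟩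
  · intro i k
    have h1 := hsmooth.mono hIcc
    have h2 : ContDiff ℝ ∞ (fun s : St => s.1 i k) := by fun_prop
    exact h2.comp_contDiffOn h1
  · intro k
    have h1 := hsmooth.mono hIcc
    have h2 : ContDiff ℝ ∞ (fun s : St => s.2 k) := by fun_prop
    exact h2.comp_contDiffOn h1
  · -- orthonormality
    have hcol : ∀ t ∈ Ioo (v₀ - ε) (v₀ + ε), ∀ k l,
        ∑ i, (α t).2.1 i k * (α t).2.1 i l = if k = l then 1 else 0 := by
      intro t ht k l
      have hd : ∀ t ∈ Ioo (v₀ - ε) (v₀ + ε),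
          HasDerivAt (fun t => ∑ i, (α t).2.1 i k * (α t).2.1 i l) 0 t := by
        intro t ht
        obtain ⟨hk0, hk1, hk2, _⟩ := hder t ht k
        obtain ⟨hl0, hl1, hl2, _⟩ := hder t ht l
        have h := ((hk0.mul hl0).add (hk1.mul hl1)).add (hk2.mul hl2)
        have hf : (fun t => ∑ i, (α t).2.1 i k * (α t).2.1 i l) =
            fun t => (α t).2.1 0 k * (α t).2.1 0 l + (α t).2.1 1 k * (α t).2.1 1 l +
              (α t).2.1 2 k * (α t).2.1 2 l := by
          funext t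
          rw [Fin.sum_univ_three]
        rw [hf]
        refine h.congr_deriv ?_
        ring
      have hconst := (convex_Ioo (v₀ - ε) (v₀ + ε)).is_const_of_fderivWithin_eq_zero (𝕜 := ℝ)
        (f := fun t => ∑ i, (α t).2.1 i k * (α t).2.1 i l)
        (fun t ht => (hd t ht).differentiableAt.differentiableWithinAt)
        (fun t ht => by
          have := (hd t ht).hasDerivWithinAt (s := Ioo (v₀ - ε) (v₀ + ε))
          have h3 := this.hasFDerivWithinAt.fderivWithin (isOpen_Ioo.uniqueDiffWithinAt ht)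
          rw [h3]
          ext
          simp)
        ht (show v₀ ∈ Ioo (v₀ - ε) (v₀ + ε) from ⟨by linarith, by linarith⟩)
      have h0 : (α v₀).2.1 = fun i j => if i = j then 1 else 0 := by rw [hα0]
      rw [hconst]
      simp only [h0]
      simp [eq_comm]
    intro t ht i j
    let M : Matrix (Fin 3) (Fin 3) ℝ := Matrix.of (α t).2.1
    have hM : M.transpose * M = 1 := by
      ext k l
      rw [Matrix.mul_apply, Matrix.one_apply]
      exact hcol t ht k l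
    have hM' : M * M.transpose = 1 := mul_eq_one_comm.1 hM
    have := congrFun (congrFun hM' i) j
    rw [Matrix.mul_apply, Matrix.one_apply] at this
    exact this

end Vale.Agent.Lib.P229
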